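import Vale.Agent.P310T.Defs
import Vale.Agent.P310Z.Defs

/-!
# P310: running times, reductions, and the problem with the dimension as part of the input
-/

namespace Vale.Agent.N310

open Vale.Agent.P310 Vale.Agent.P310T Vale.Agent.P310Z

/-- `T` is the worst-case running time `T_A` of a multitape Turing machine `A` which decides
`k`-WL equivalence, or a bound for the running time of a random access machine which decides it. -/
def IsTime (k : ℕ) (T : ℕ → ℕ) : Prop :=
  (∃ A : TM, A.Decides k ∧ T = A.worst) ∨ ∃ (M : Model) (P : List Instr), RamDecidesWL M P k T

/-- On the input `w` the machine `A` halts, in an accepting state iff `P` holds. -/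
def Answers (A : TM) (w : List Bool) (P : Prop) : Prop :=
  ∃ t, A.act (A.conf w t) = none ∧ ((A.conf w t).state ∈ A.accept ↔ P)

/-- On the input `x` the machine `B` halts after at most `T` steps; then the tape `o` holds the
word `y`, starting under the head, followed by blanks. -/
def Writes (B : TM) (o : B.Tape) (x y : List Bool) (T : ℕ) : Prop :=
  ∃ t ≤ T, B.act (B.conf x t) = none ∧ ∀ j : ℕ,
    (B.conf x t).tape o ((B.conf x t).head o + j) = ((y[j]?).map B.bit).getD B.blank

/-- The input word when `k` is part of the input: `2 k` ones, a zero, the adjacency matrices. -/
noncomputable def uniWord (k : ℕ) {n : ℕ} (G H : SimpleGraph (Fin n)) : List Bool :=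
  List.replicate (2 * k) true ++ false :: inputWord G H

end Vale.Agent.N310
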