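import Vale.Agent.N310.Defs
import Vale.Agent.P310T.Main

/-!
# P310: hardness under reductions of one fixed degree
-/

namespace Vale.Agent.N310

open Function Filter Turing Vale.Agent.P310 Vale.Agent.P310T Vale.Agent.P310Z
open Vale.Agent.Lib.PolyTime Vale.Agent.Lib.PolyTime.ToTM2 Vale.Agent.P310T43

theorem fp_clean {R : Word → Word} (h : FP ∅ R) :
    ∃ c, 1 ≤ c ∧ ∃ (p : Prog) (w : ℕ), 2 ≤ w ∧ Clean ∅ p w R (pb c) := by
  obtain ⟨p, w, c, hw, h⟩ := h
  refine ⟨c + 1, by omega, p, w, hw, fun s hs => ?_⟩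
  obtain ⟨t, ht, h1⟩ := h s hs
  exact ⟨t, ht.trans (Nat.pow_le_pow_right (by omega) (Nat.le_succ c)), h1⟩

/-- A flat machine which applies `R` and then runs the tape machine `A`. -/
theorem exists_flat {R : Word → Word} (hR : FP ∅ R) : ∃ c, ∀ A : TM, ∃ (t : FTable) (K : ℕ),
    ∀ (u : Word) (P : Prop), Answers A (R (pr u [])) P →
      ((∃ m, t.AccAt u m) ↔ P) ∧
      (P → ∃ m ≤ K * ((2 * u.length + 3) ^ c + A.time (R (pr u [])) + 2), t.AccAt u m) := by
  obtain ⟨c, hc, h⟩ := fp_clean hR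
  refine ⟨c, fun A => ?_⟩
  obtain ⟨B, inp, yes, hB⟩ := exists_stack A
  obtain ⟨t, K, ht⟩ := simSpec hc h B inp yes []
  refine ⟨t, K, fun u P ⟨s, hs, hP⟩ => ?_⟩
  obtain ⟨-, h2, h3, h4⟩ := time_spec hs
  obtain ⟨cfg, e1, e2, e3⟩ := hB _ _ h2 h3
  rw [h4, hP] at e3
  obtain ⟨h5, h6⟩ := ht u _ cfg e1 e2
  rw [e3] at h5 h6
  exact ⟨h5, h6⟩

/-- The graphs of a flat machine. -/
theorem exists_graphs (t : FTable) (u : Word) (k extra : ℕ) (hk : 4 ≤ k)
    (hs : t.Small (u.length + 2)) (hu : 1 ≤ u.length) :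
    ∃ G H : SimpleGraph (Fin (redN t extra u k (nF k))),
      redBits t extra u k (nF k) = inputWord G H ∧
      (WLEquiv k G H ↔ ¬ ∃ m < (u.length + 2) ^ (k / 4), t.AccAt u m) := by
  obtain ⟨hok, hder⟩ := genSpec t u (u.length + 2) (k / 4) hs (by omega) (by omega) (by omega)
  have hh : (Gen.data t u (u.length + 2) (k / 4)).h = k / 4 + k / 4 := rfl
  obtain ⟨G, H, hGa, hHa, hGH⟩ := graphSpec _ hok k (by omega) (by rw [hh]; omega)
    (redN t extra u k (nF k)) (Nat.le_add_right _ _)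
  refine ⟨G, H, ?_, by rw [hGH, hder]⟩
  rw [inputWord, adjBits_eq G _ hGa, adjBits_eq H _ hHa]
  rfl

/-- The machine with the other answer. -/
def flip (A : TM) : TM := { A with accept := A.acceptᶜ }

theorem flip_conf (A : TM) (w : List Bool) (t : ℕ) :
    (flip A).conf w t = ⟨(A.conf w t).state, (A.conf w t).tape, (A.conf w t).head⟩ := by
  induction t with
  | zero => rfl
  | succ t ih =>
    rw [TM.conf, TM.conf, iterate_succ_apply', iterate_succ_apply']
    rw [TM.conf, TM.conf] at ih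
    rw [ih]
    generalize A.next^[t] (A.init w) = c
    have h : (flip A).act ⟨c.state, c.tape, c.head⟩ = A.act c := rfl
    unfold TM.next
    rw [h]
    cases A.act c <;> rfl

theorem flip_act (A : TM) (w : List Bool) (t : ℕ) :
    (flip A).act ((flip A).conf w t) = A.act (A.conf w t) := by
  rw [flip_conf]
  rfl

theorem flip_time (A : TM) (w : List Bool) : (flip A).time w = A.time w := by
  unfold TM.time
  congr 1
  ext t
  exact Eq.congr_left (flip_act A w t)

theorem flip_answers {A : TM} {w : List Bool} {P : Prop} (h : Answers A w P) :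
    Answers (flip A) w ¬ P := by
  obtain ⟨t, h1, h2⟩ := h
  refine ⟨t, (flip_act A w t).trans h1, ?_⟩
  rw [flip_conf]
  exact not_congr h2

/-- A program as a multitape Turing machine which writes the content of stack `1`. -/
theorem exists_writer (p : Prog) : ∃ (B : TM) (o : B.Tape), ∀ (x : Word) (t : ℕ) (σ : ℕ → Word),
    Runs ∅ p (start x []) t σ → Writes B o x (σ 1) (3 * t + 3) := by
  obtain ⟨N, hN⟩ := exists_bounded p
  have hN' : bounded (N + 1 + 1) p := bounded_mono (by omega) hN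
  have h0 : [] ∈ insert [] (reach p []) := Set.mem_insert _ _
  refine ⟨mach (N + 1) _ h0 ((reach_finite p []).insert []) p, stk (N + 1) 1,
    fun x t σ ⟨t', ht, e⟩ => ?_⟩
  obtain ⟨m, a, d, b, hq, hs⟩ := sim_tm (h0 := h0) (hR := (reach_finite p []).insert [])
    (p₀ := p) e hN' [] (fun y hy => Set.mem_insert_of_mem _ hy) (TM.init _ x) rfl fun i j => by
      rcases eq_or_ne i 0 with rfl | hi
      · simp only [TM.init, start]
        cases hj : x[j]? <;> simp [hj]
      · have : (i : ℕ) ≠ 0 := fun e => hi (Fin.ext e)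
        simp [TM.init, start, hi, this]
  have h1 := hs.scan (i := 1) (by omega)
  have h2 : ∀ j : ℕ, d.tape (stk (N + 1) 1) (d.head (stk (N + 1) 1) + j) =
      (((σ 1)[j]?).map some).getD none := fun j => by
    rw [hs, stk_val (by omega)]
    cases (σ 1)[j]? <;> rfl
  by_cases hσ : (σ 1).head? = some true
  · have e1 := step_eq h0 hq (q := (lab _ h0 [], true)) (by rw [dl, if_pos (h1.trans hσ)])
    refine ⟨m + 1, by omega, ?_⟩
    rw [TM.conf, iterate_succ_apply', b, e1]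
    refine ⟨by simp [TM.act, lab_of_mem h0, dl], fun j => ?_⟩
    simpa only [stay, app_stay, update_eq_self] using h2 j
  · refine ⟨m, by omega, ?_⟩
    rw [TM.conf, b]
    exact ⟨by simp [TM.act, hq, lab_of_mem h0, dl, h1, hσ], h2⟩

theorem raw_enc {α β : Type} [Enc α] [Enc β] {f : α → β} (hf : PT ∅ f) :
    PT ∅ fun a => Raw.mk (enc (f a)) := by
  obtain ⟨G, hG, hG'⟩ := hf
  exact ⟨G, hG, fun z => hG' z⟩

theorem pt_red : PT ∅ fun z : (FTable × Raw × (Un × Un)) × Raw =>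
    Raw.mk (redBits z.1.1 0 (enc (z.1.1, (0 : ℕ), Raw.mk (enc (z.1.2.1, z.2))))
      z.1.2.2.1.v z.1.2.2.2.v) :=
  redBits_pt.comp (f := fun z : (FTable × Raw × (Un × Un)) × Raw =>
    ((z.1.1, (0 : ℕ), Raw.mk (enc (z.1.2.1, z.2))), z.1.2.2))
    ((PT.fst'.fst.pair ((PT.const 0).pair (raw_enc (PT.fst'.snd.fst.pair PT.snd')))).pair
      PT.fst'.snd.snd)

theorem hard : ∃ d k₀ : ℕ, ∀ k, k₀ ≤ k → ∀ (L : Set (List Bool)) (A : TM) (C : ℕ),
    (∀ x, Answers A x (x ∈ L) ∧ A.time x ≤ C * (x.length + 1) ^ (k / 4 - 1)) →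
    ∃ (B : TM) (o : B.Tape) (D : ℕ), ∀ x, ∃ (n : ℕ) (G H : SimpleGraph (Fin n)),
      Writes B o x (inputWord G H) (D * (x.length + 1) ^ d) ∧ (x ∈ L ↔ WLEquiv k G H) := by
  obtain ⟨c, hc⟩ := exists_flat (R := fun z => sndW (sndW (sndW (fstW z))))
    (FP.snd.comp (FP.snd.comp (FP.snd.comp FP.fst)))
  obtain ⟨R, ⟨p, w, d, hw, hp⟩, hR⟩ := pt_red
  refine ⟨d, 4 * (c + 1), fun k hk L A C hA => ?_⟩
  obtain ⟨t, K, ht⟩ := hc (flip A)
  obtain ⟨b₀, hb₀⟩ := t.exists_small
  set pad : Word := List.replicate (b₀ + K * (2 ^ c + C + 2)) false with hpad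
  set y : FTable × Raw × (Un × Un) := (t, ⟨pad⟩, ⟨k⟩, ⟨nF k⟩) with hy
  obtain ⟨B, o, hB⟩ := exists_writer (.seq (pushAll (pr (enc y) [])) p)
  refine ⟨B, o, 3 * ((2 * (enc y).length + 2) + (2 * (enc y).length + 3) ^ d) + 3, fun x => ?_⟩
  set u : Word := enc (t, (0 : ℕ), Raw.mk (enc (Raw.mk pad, Raw.mk x))) with hu
  have hu' : u = pr (enc t) (pr (enc (0 : ℕ)) (pr pad x)) := rfl
  have hul : b₀ + K * (2 ^ c + C + 2) + x.length + 3 ≤ u.length := by
    rw [hu', length_pr, length_pr, length_pr, hpad, List.length_replicate]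
    omega
  obtain ⟨G, H, e1, e2⟩ := exists_graphs t u k 0 (by omega) (hb₀ _ (by omega)) (by omega)
  refine ⟨_, G, H, ?_, ?_⟩
  · have r0 := runs_pushAll (pr (enc y) []) x
    have e3 : pr (enc y) [] ++ x = enc (y, Raw.mk x) := by
      show _ = pr (enc y) x
      rw [pr_eq _ [], pr_eq _ x, List.append_assoc]
      rfl
    rw [e3] at r0
    have r1 : Runs ∅ p (start (enc (y, Raw.mk x)) []) _ _ := hp _ fun i h1 h2 => by
      simp only [start]
      split_ifs <;> first | rfl | omega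
    obtain ⟨s, hs, h⟩ := hB x _ _ (r0.seq r1)
    have e4 : R (start (enc (y, Raw.mk x)) [] 0) = inputWord G H := (hR (y, Raw.mk x)).trans e1
    rw [update_self, e4] at h
    refine ⟨s, hs.trans ?_, h⟩
    have e5 : (start (enc (y, Raw.mk x)) [] 0).length = 2 * (enc y).length + x.length + 1 :=
      length_pr _ _
    rw [e5, length_pr, List.length_nil, pb]
    have h1 : 1 ≤ (x.length + 1) ^ d := Nat.one_le_pow _ _ (by omega)
    have h2 : (2 * (enc y).length + x.length + 1 + 2) ^ d ≤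
        (2 * (enc y).length + 3) ^ d * (x.length + 1) ^ d := by
      rw [← mul_pow]
      exact Nat.pow_le_pow_left (by nlinarith) d
    nlinarith
  · have e6 : sndW (sndW (sndW (fstW (pr u [])))) = x := by simp [hu']
    obtain ⟨h1, h2⟩ := ht u (¬ x ∈ L) (by rw [e6]; exact flip_answers (hA x).1)
    rw [e6, flip_time] at h2
    rw [e2]
    refine ⟨fun hx ⟨m, _, hm⟩ => h1.1 ⟨m, hm⟩ hx, fun h => by_contra fun hx => h ?_⟩
    obtain ⟨m, hm, hacc⟩ := h2 hx
    refine ⟨m, hm.trans_lt ?_, hacc⟩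
    obtain ⟨e, he⟩ : ∃ e, k / 4 = e + 1 := ⟨k / 4 - 1, by omega⟩
    have h3 := (hA x).2
    rw [he, Nat.add_sub_cancel] at h3
    rw [he, pow_succ]
    have h4 : (2 * u.length + 3) ^ c ≤ 2 ^ c * (u.length + 2) ^ e := by
      refine le_trans (Nat.pow_le_pow_left (by omega : _ ≤ 2 * (u.length + 2)) c) ?_
      rw [mul_pow]
      exact Nat.mul_le_mul_left _ (Nat.pow_le_pow_right (by omega) (by omega))
    have h5 : C * (x.length + 1) ^ e ≤ C * (u.length + 2) ^ e :=
      Nat.mul_le_mul_left _ (Nat.pow_le_pow_left (by omega) e)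
    have h6 : 1 ≤ (u.length + 2) ^ e := Nat.one_le_pow _ _ (by omega)
    calc K * ((2 * u.length + 3) ^ c + A.time x + 2)
        ≤ K * ((2 ^ c + C + 2) * (u.length + 2) ^ e) :=
          Nat.mul_le_mul_left _ (by rw [add_mul, add_mul]; omega)
      _ = (u.length + 2) ^ e * (K * (2 ^ c + C + 2)) := by ring
      _ < _ := Nat.mul_lt_mul_of_pos_left (by omega) (by omega)

end Vale.Agent.N310
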