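import Vale.Agent.N310.Hard

/-!
# P310: the dimension as part of the input
-/

namespace Vale.Agent.N310

open Function Filter Turing Vale.Agent.P310 Vale.Agent.P310T Vale.Agent.P310Z
open Vale.Agent.Lib.PolyTime

theorem pr_un (k : ℕ) (x : Word) :
    pr (List.replicate k true) x = List.replicate (2 * k) true ++ false :: x := by
  induction k with
  | zero => rfl
  | succ k ih => rw [List.replicate_succ, pr, ih, Nat.mul_succ, List.replicate_succ,
      List.replicate_succ]; rfl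

theorem pow_four_le (k : ℕ) : (k + 3) ^ 4 ≤ nF k := by
  unfold nF
  induction k with
  | zero => norm_num
  | succ k ih =>
    have h1 : (k + 1 + 3) ^ 4 ≤ 4 * (k + 3) ^ 4 := by
      have : 4 * (k + 3) ^ 4 = (k + 1 + 3) ^ 4 +
        (3 * k ^ 4 + 32 * k ^ 3 + 120 * k ^ 2 + 176 * k + 68) := by ring
      omega
    have h2 : 2 ^ (2 * (k + 1 + 3) + 1) = 4 * 2 ^ (2 * (k + 3) + 1) := by ring
    omega

theorem le_nF (k : ℕ) : k + 3 ≤ nF k :=
  (Nat.le_self_pow (by norm_num) _).trans (pow_four_le k)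

/-- The size bound, uniformly in the dimension. -/
theorem exists_size (t : FTable) : ∃ C, ∀ (b k : ℕ) (w : Word), nF k ≤ b → w.length ≤ b →
    (Gen.data t w b (k / 4)).nTot k (nF k) ≤ C * b ^ 38 := by
  let ι := {x : ℕ × ℕ × Word // nF x.2.1 ≤ x.1 ∧ x.2.2.length ≤ x.1}
  let b : ι → ℕ := fun i => i.1.1
  let k : ι → ℕ := fun i => i.1.2.1
  let D : ι → HData := fun i => Gen.data t i.1.2.2 (b i) (k i / 4)
  have hk : ∀ i, k i + 3 ≤ b i := fun i => (le_nF _).trans i.2.1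
  have hb : ∀ i, 1 ≤ b i := fun i => by have := hk i; omega
  have hF : PolyB b (fun i => nF (k i)) 1 := PolyB.self.of_le fun i => i.2.1
  have hR : PolyB b (fun i => (D i).nR) 3 := ⟨9 + 7 * Gen.acts t, fun i => by
    have h1 := Gen.length_rules_le t i.1.2.2 (b i) (k i / 4)
    have h2 : k i / 4 ≤ b i := by have := hk i; omega
    have h3 : i.1.2.2.length ≤ b i := i.2.2
    have h4 := hb i
    refine le_trans h1 ?_
    clear h1
    generalize k i / 4 = g at h2 ⊢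
    have h5 : b i ≤ b i ^ 3 := Nat.le_self_pow (by norm_num) _
    have h6 : b i * (b i * g) ≤ b i ^ 3 := by
      rw [show b i ^ 3 = b i * (b i * b i) by ring]
      exact Nat.mul_le_mul_left _ (Nat.mul_le_mul_left _ h2)
    have h7 : b i * b i ≤ b i ^ 3 := by
      rw [← pow_two]
      exact Nat.pow_le_pow_right h4 (by norm_num)
    have h8 : 3 + 2 * g + b i * b i * (g + 1) ≤ 7 * b i ^ 3 := by
      rw [show b i * b i * (g + 1) = b i * (b i * g) + b i * b i by ring]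
      omega
    have h9 := Nat.mul_le_mul_left (Gen.acts t) h8
    rw [add_mul, mul_comm 7 (Gen.acts t), mul_assoc (Gen.acts t)]
    omega⟩
  have hC : PolyB b (fun i => (D i).nC) 2 := ⟨10, fun i => by
    show 2 + 8 * (b i * b i) ≤ 10 * b i ^ 2
    have : 1 ≤ b i ^ 2 := Nat.one_le_pow _ _ (hb i)
    nlinarith⟩
  have hB : PolyB b (fun i => (D i).nB (k i)) 4 := (hF.mul hR).of_le fun i => by
    refine le_trans (le_of_eq ?_) (Nat.mul_le_mul_right _ (pow_four_le (k i)))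
    simp only [HData.nB, lineB, lineY]
    ring
  have hM : PolyB b (fun i => (D i).nM (k i)) 7 := hR.mul hB
  have hkb : PolyB b (fun i => k i * (D i).b) 2 := (PolyB.self.mul PolyB.self).of_le fun i =>
    Nat.mul_le_mul_right _ (by have := hk i; omega)
  have hV : PolyB b (fun i => (D i).nV (k i)) 11 := (hC.mul hM).mul hkb
  have hRow : PolyB b (fun i => (D i).nRow (k i)) 12 := (hR.mul hM).mul hkb
  have h1 : PolyB b (fun _ => 1) 0 := PolyB.const 1
  have hE : PolyB b (fun i => (D i).nE (k i)) 12 :=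
    hRow.add' hb (hM.add' hb h1 (by norm_num)) (by norm_num)
  have hU : PolyB b (fun i => (D i).nU (k i) (nF (k i))) 13 :=
    ((hV.mul (PolyB.const 2)).mono hb (by norm_num)).add (hE.mul hF)
  have hbig : PolyB b (fun i => (D i).bigB (k i) (nF (k i))) 13 := hU.add' hb h1 (by norm_num)
  have hL : PolyB b (fun i => (D i).nL (k i) (nF (k i))) 25 :=
    ((hV.mono hb (by norm_num)).add hE).mul hbig
  obtain ⟨C, hC⟩ : PolyB b (fun i => (D i).nTot (k i) (nF (k i))) 38 :=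
    hU.mul (hL.add' hb h1 (by norm_num))
  exact ⟨C, fun b k w h1 h2 => hC ⟨(b, k, w), h1, h2⟩⟩

theorem between (f : ℕ → ℕ) (hf : ∀ b, b ≤ f b) {b₀ n : ℕ} (hn : f b₀ ≤ n) :
    ∃ b, b₀ ≤ b ∧ f b ≤ n ∧ n < f (b + 1) := by
  classical
  have h0 : b₀ ≤ n := (hf b₀).trans hn
  refine ⟨Nat.findGreatest (fun b => f b ≤ n) n, Nat.le_findGreatest h0 hn,
    Nat.findGreatest_spec (P := fun b => f b ≤ n) h0 hn, ?_⟩
  by_contra hlt
  push Not at hlt
  have h1 : Nat.findGreatest (fun b => f b ≤ n) n + 1 ≤ n := (hf _).trans hlt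
  have h2 := Nat.le_findGreatest (P := fun b => f b ≤ n) h1 hlt
  omega

theorem pt_uni : PT ∅ fun z : (FTable × ℕ × ((Un × Un) × Raw)) × Unit =>
    (z.1.2.2.1.1, Raw.mk (redBits z.1.1 z.1.2.1 (enc (z.1.1, z.1.2.1, Raw.mk (enc z.1.2.2)))
      z.1.2.2.1.1.v z.1.2.2.1.2.v)) :=
  PT.fst'.snd.snd.fst.fst.pair (redBits_pt.comp
    (f := fun z : (FTable × ℕ × ((Un × Un) × Raw)) × Unit =>
      ((z.1.1, z.1.2.1, Raw.mk (enc z.1.2.2)), z.1.2.2.1))
    ((PT.fst'.fst.pair (PT.fst'.snd.fst.pair (raw_enc PT.fst'.snd.snd))).pair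
      PT.fst'.snd.snd.fst))

theorem two_pow_le {k n : ℕ} (hn : 1 ≤ n) (h : (k : ℝ) ≤ 1 / 624 * Real.log n) :
    2 ^ (152 * k) ≤ n := by
  have hn' : (0 : ℝ) < n := by exact_mod_cast hn
  have h1 : ((152 * k : ℕ) : ℝ) * Real.log 2 ≤ Real.log n := by
    have h2 : Real.log 2 ≤ 1 := by
      have := Real.log_le_sub_one_of_pos (show (0 : ℝ) < 2 by norm_num)
      linarith
    have h3 : (0 : ℝ) ≤ k := Nat.cast_nonneg k
    push_cast
    nlinarith
  rw [← Real.log_pow, Real.log_le_log_iff (by positivity) hn'] at h1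
  exact_mod_cast h1

theorem mul_le_of_sq {a b n : ℕ} (ha : a ^ 2 ≤ n) (hb : b * b ≤ n) : a * b ≤ n := by
  rw [pow_two] at ha
  exact Nat.mul_self_le_mul_self_iff.1
    (le_trans (le_of_eq (mul_mul_mul_comm _ _ _ _)) (Nat.mul_le_mul ha hb))

theorem start_le {C bs k n : ℕ} (h6 : (C * (bs + 2048) ^ 38) ^ 2 ≤ n) (h5 : 2 ^ (152 * k) ≤ n) :
    C * (bs + 16 * nF k) ^ 38 ≤ n := by
  have h1 : bs + 16 * nF k ≤ (bs + 2048) * 2 ^ (2 * k) := by
    have h2 : nF k = 128 * 2 ^ (2 * k) := by unfold nF; ring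
    have h3 : 1 ≤ 2 ^ (2 * k) := Nat.one_le_two_pow
    rw [h2]
    nlinarith
  have h4 : C * (bs + 16 * nF k) ^ 38 ≤ C * (bs + 2048) ^ 38 * 2 ^ (76 * k) := by
    rw [mul_assoc, show 76 * k = 2 * k * 38 by ring, pow_mul, ← mul_pow]
    exact Nat.mul_le_mul_left _ (Nat.pow_le_pow_left h1 38)
  refine h4.trans (mul_le_of_sq h6 ?_)
  rwa [← pow_add, show 76 * k + 76 * k = 152 * k by ring]

theorem pow_half {b : ℕ} (hb : 6 ≤ b) : b ^ (38 + 1) ≤ (b / 2) ^ 78 := by
  rw [show 78 = 2 * (38 + 1) from rfl, pow_mul]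
  refine Nat.pow_le_pow_left ?_ _
  have h1 : 3 ≤ b / 2 := by omega
  have h2 : b ≤ 2 * (b / 2) + 1 := by omega
  nlinarith

theorem uni_lower : ∃ c : ℝ, 0 < c ∧ ∃ k₀ : ℕ, ∀ A : TM,
    (∀ k, 2 ≤ k → ∀ (n : ℕ) (G H : SimpleGraph (Fin n)),
      Answers A (uniWord k G H) (WLEquiv k G H)) →
    ∀ᶠ n : ℕ in atTop, ∀ k : ℕ, k₀ ≤ k → (k : ℝ) ≤ c * Real.log n →
      ∃ G H : SimpleGraph (Fin n), (n : ℝ) ^ (c * k) ≤ A.time (uniWord k G H) := by
  obtain ⟨R, hR, eR⟩ := pt_uni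
  obtain ⟨c, hc⟩ := exists_flat hR
  refine ⟨1 / 624, by norm_num, 4 * (c + 1) + 20, fun A hA => ?_⟩
  obtain ⟨t, K, ht⟩ := hc A
  obtain ⟨b₀, hb₀⟩ := t.exists_small
  obtain ⟨C, hC⟩ := exists_size t
  obtain ⟨b₁, hb₁⟩ := eventually_atTop.1 (eventually_size_le 78 (8 + 2 * (enc t : Word).length))
  obtain ⟨bs, hbs⟩ : ∃ bs, bs = b₀ + 2 * b₁ + (C * 2 ^ 38 + 1) + (K * (3 ^ c + 1) + 4) + 8 :=
    ⟨_, rfl⟩
  filter_upwards [eventually_ge_atTop ((C * (bs + 2048) ^ 38) ^ 2), eventually_ge_atTop 1]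
    with n hn hn0 k hk hlog
  have hkF := le_nF k
  let f : ℕ → ℕ := fun b => (Gen.data t (List.replicate (b - 2) false) b (k / 4)).nTot k (nF k)
  have hf : ∀ b, b ≤ f b := fun b => Gen.le_nTot t _ b _ (by omega) _
  have hfC : ∀ b, nF k ≤ b → f b ≤ C * b ^ 38 := fun b hb => hC b k _ hb (by simp)
  have hstart : f (bs + 16 * nF k) ≤ n := by
    exact (hfC _ (by omega)).trans (start_le hn (two_pow_le hn0 hlog))
  obtain ⟨b, hb, hfb, hfb'⟩ := between f hf hstart
  have hn1 : n ≤ b ^ (38 + 1) := poly_le (by omega) (hfb'.le.trans (hfC (b + 1) (by omega)))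
  have hpos := hf b
  set extra := n - f b with hextra
  have hlen : (enc extra : Word).length = Nat.size extra := esize_nat extra
  have hsz : 8 + 2 * (enc t : Word).length + 2 * (enc extra : Word).length ≤ b / 2 := by
    rw [hlen]
    refine hb₁ (b / 2) (by omega) extra (lt_of_lt_of_le (by omega : extra < b ^ (38 + 1)) ?_)
    exact pow_half (by omega)
  set pad : Word := List.replicate (b - (7 + 2 * (enc t : Word).length +
    2 * (enc extra : Word).length + 4 * k + 2 * nF k)) false with hpad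
  set z : FTable × ℕ × ((Un × Un) × Raw) := (t, extra, (⟨k⟩, ⟨nF k⟩), ⟨pad⟩) with hz
  have hu : enc z = pr (enc t) (pr (enc extra)
    (pr (pr (List.replicate k true) (List.replicate (nF k) true)) pad)) := rfl
  have hul : (enc z).length + 2 = b := by
    rw [hu, length_pr, length_pr, length_pr, length_pr, hpad]
    simp only [List.length_replicate]
    omega
  have hsize : redN t extra (enc z) k (nF k) = n := by
    unfold redN
    rw [hul, Gen.nTot_congr t (w' := List.replicate (b - 2) false) (by simp; omega),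
      min_eq_left (le_trans (by omega) (Nat.pow_le_pow_right (by omega) (by omega : 38 + 1 ≤ 40)))]
    show f b + extra = n
    omega
  have hG := exists_graphs t (enc z) k extra (by omega) (hb₀ _ (by omega)) (by omega)
  rw [hsize, hul] at hG
  obtain ⟨G, H, e1, e2⟩ := hG
  have e3 : R (pr (enc z) []) = uniWord k G H := by
    refine (eR (z, ())).trans ?_
    rw [uniWord, ← e1, ← pr_un]
    rfl
  obtain ⟨h1, h2⟩ := ht (enc z) _ (by rw [e3]; exact hA k (by omega) n G H)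
  rw [e3] at h2
  refine ⟨G, H, ?_⟩
  have h3 : b ^ (k / 4) ≤ K * ((2 * b + 3) ^ c + (A.time (uniWord k G H) + 1) + 1) := by
    by_contra hlt
    by_cases hE : WLEquiv k G H
    · obtain ⟨m, hm, hacc⟩ := h2 hE
      refine e2.1 hE ⟨m, lt_of_le_of_lt (hm.trans (Nat.mul_le_mul_left _ ?_)) (not_le.1 hlt), hacc⟩
      have := Nat.pow_le_pow_left (by omega : 2 * (enc z).length + 3 ≤ 2 * b + 3) c
      omega
    · obtain ⟨m, -, hm⟩ := not_not.1 (mt e2.2 hE)
      exact hE (h1.1 ⟨m, hm⟩)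
  have h4 := le_of_time (by omega) (by omega) h3
  have h5 : b ^ ((k - 4) / 4 - 1) ≤ A.time (uniWord k G H) := by
    rw [show k / 4 - 1 = (k - 4) / 4 - 1 + 1 by omega, pow_succ] at h4
    have h6 : 1 ≤ b ^ ((k - 4) / 4 - 1) := Nat.one_le_pow _ _ (by omega)
    have h7 := Nat.mul_le_mul_left (b ^ ((k - 4) / 4 - 1)) (by omega : 2 ≤ b)
    omega
  refine le_trans (Real.rpow_le_rpow_of_exponent_le (by exact_mod_cast hn0) ?_)
    ((rpow_le (E := 38) (k := k - 4) (by omega) (by omega) hn1).trans (by exact_mod_cast h5))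
  rw [Nat.cast_sub (by omega)]
  have h8 : (20 : ℝ) ≤ k := by exact_mod_cast (by omega : 20 ≤ k)
  push_cast
  linarith

theorem uni_upper : ∃ (C : ℕ) (A : TM), ∀ k, 2 ≤ k → ∀ (n : ℕ) (G H : SimpleGraph (Fin n)),
    Answers A (uniWord k G H) (WLEquiv k G H) ∧ A.time (uniWord k G H) ≤ (n + 2) ^ (C * k) := by
  obtain ⟨I, hI, eI⟩ := pt_linit
  obtain ⟨S, hS, eS⟩ := pt_lstep
  obtain ⟨F, hF, eF⟩ := pt_lflag
  obtain ⟨O, hO, eO⟩ : PT ∅ fun u : LSt => P310T43.dec u.1 u.2.2 :=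
    P310T43.pt_dec.comp (PT.fst'.pair PT.snd'.snd)
  obtain ⟨U, T₀, ⟨c, hc⟩, hU⟩ := exists_while hI hS hF hO
  obtain ⟨A, hA⟩ := P310T43.exists_tm U
  refine ⟨5 * c + 2, A, fun k hk n G H => ?_⟩
  have hx := length_inputWord G H
  set x := inputWord G H with hxd
  set y : Un × Raw := (⟨k⟩, ⟨x⟩) with hy
  set z := (n + 2) ^ (k + 2) with hz
  have hz1 : (n + 2) ^ k * (n + 2) ≤ z := by
    rw [hz, ← pow_succ]
    exact Nat.pow_le_pow_right (by omega) (by omega)
  have hz2 : (n + 2) ^ 2 ≤ z := Nat.pow_le_pow_right (by omega) (by omega)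
  have hz3 : n * n + 1 ≤ z := le_trans (by nlinarith) hz2
  have hkz : k ≤ k * z := Nat.le_mul_of_pos_right _ (by omega)
  have ey : esize y ≤ (8 * k + 9) * z := by
    rw [hy, esize_pair, esize_raw, esize_un, add_mul, mul_assoc]
    simp only
    omega
  have eit : ∀ j, S^[j] (I (enc y)) = enc (lstep^[j] (linit y)) := fun j => by
    induction j with
    | zero => exact eI y
    | succ j ih => rw [iterate_succ_apply', iterate_succ_apply', ih, eS]
  obtain ⟨σ, r, hσ⟩ := hU (enc y) k ((8 * k + 9) * z) ey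
    (by rw [add_mul, mul_assoc]; omega)
    (fun j hj => by
      rw [eit, eF, lstep_iter hx, lflag, if_pos (by simp only; omega)]
      exact List.cons_ne_nil _ _)
    (by rw [eit, eF, lstep_iter hx, lflag, if_neg (by simp)]; rfl)
    (fun j hj => by
      rw [eit, lstep_iter hx]
      show esize _ ≤ _
      have t1 := esize_list_le (esize_mem_tup n j)
      rw [length_tup] at t1
      have t2 : n ^ j ≤ (n + 2) ^ k :=
        (Nat.pow_le_pow_left (by omega) j).trans (Nat.pow_le_pow_right (by omega) hj)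
      have t3 : 2 * (j * (2 * n + 1)) + 1 ≤ (n + 2) * (4 * k + 1) := by
        have := Nat.mul_le_mul_right (2 * n + 1) hj
        nlinarith
      have t4 : esize (tup n j) ≤ z * (4 * k + 1) :=
        t1.trans ((Nat.mul_le_mul t2 t3).trans
          (by rw [← mul_assoc]; exact Nat.mul_le_mul_right _ hz1))
      have t5 := esize_nat_le_self (k - j)
      rw [esize_pair, esize_pair, esize_raw]
      simp only
      have t6 : z * (4 * k + 1) = 4 * (k * z) + z := by ring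
      have t7 : (8 * k + 9) * z = 8 * (k * z) + 9 * z := by ring
      omega)
  have e0 : enc y = uniWord k G H := pr_un k x
  have e1 : (σ 1).head? = some true ↔ WLEquiv k G H := by
    rw [hσ, eit, eO, lstep_iter hx, ← P310T43.dec_spec, ← tup_eq]
    simp [enc_bool, hxd]
  rw [e0] at r
  obtain ⟨s, hs, e2, e3⟩ := hA _ _ σ r
  refine ⟨⟨s, e2, e3.trans e1⟩, (time_spec e2).1.trans (hs.trans ?_)⟩
  have h0 : 8 * k + 11 ≤ (n + 2) ^ (3 * k) := by
    refine le_trans ?_ (Nat.pow_le_pow_left (by omega : 2 ≤ n + 2) _)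
    have h1 : k < 2 ^ k := Nat.lt_two_pow_self
    have h2 : 2 ^ (2 * 2) ≤ 2 ^ (2 * k) := Nat.pow_le_pow_right (by omega) (by omega)
    rw [show 3 * k = 2 * k + k by ring, pow_add]
    exact le_trans (by omega) (Nat.mul_le_mul h2 h1)
  have h1 : T₀ ((8 * k + 9) * z) ≤ (n + 2) ^ (5 * c * k) := by
    refine (hc _).trans ?_
    have h2 : (8 * k + 9) * z + 2 ≤ (8 * k + 11) * (n + 2) ^ (2 * k) := by
      have h3 : z ≤ (n + 2) ^ (2 * k) := Nat.pow_le_pow_right (by omega) (by omega)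
      nlinarith
    refine (Nat.pow_le_pow_left (h2.trans (Nat.mul_le_mul_right _ h0)) c).trans (le_of_eq ?_)
    rw [← pow_add, ← pow_mul]
    congr 1
    ring
  have h4 : 1 ≤ (n + 2) ^ (5 * c * k) := Nat.one_le_pow _ _ (by omega)
  have h5 : 2 ^ (2 * 2) ≤ (n + 2) ^ (2 * k) :=
    (Nat.pow_le_pow_right (by omega) (by omega)).trans (Nat.pow_le_pow_left (by omega) _)
  rw [add_mul (5 * c), pow_add]
  exact le_trans (by omega) (Nat.mul_le_mul_left _ h5)

theorem IsTime.old {k : ℕ} {T : ℕ → ℕ} (h : IsTime k T) :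
    (∃ A : TM, A.Decides k ∧ T = A.worst) ∨ DecidableInTime k T := h.imp_right Or.inr

theorem q1 : (∃ c : ℝ, 0 < c ∧ ∃ k₀ : ℕ, ∀ k : ℕ, k₀ ≤ k → ∀ T : ℕ → ℕ, IsTime k T →
      ∀ᶠ n : ℕ in atTop, (n : ℝ) ^ (c * k) ≤ (T n : ℝ)) ∧
    (¬ ∃ g : ℕ → ℝ, g =o[atTop] (fun k : ℕ => (k : ℝ)) ∧
      ∀ k : ℕ, 2 ≤ k → ∃ T : ℕ → ℕ, IsTime k T ∧
        (fun n : ℕ => (T n : ℝ)) =O[atTop] (fun n : ℕ => (n : ℝ) ^ g k)) ∧
    ∃ C : ℕ, ∀ k : ℕ, 2 ≤ k → ∃ A : TM, A.Decides k ∧
      (fun n : ℕ => (A.worst n : ℝ)) =O[atTop] (fun n : ℕ => (n : ℝ) ^ (C * k)) := by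
  obtain ⟨c, hc, k₀, h⟩ := lower
  obtain ⟨C, hC⟩ := upper
  refine ⟨⟨c, hc, k₀, fun k hk T hT => h k hk T hT.old⟩, ?_, C, fun k hk => (hC k hk).1⟩
  rintro ⟨g, hg, h⟩
  refine noSub ⟨g, hg, fun k hk => ?_⟩
  obtain ⟨T, h1, h2⟩ := h k hk
  exact ⟨T, h1.old, h2⟩

end Vale.Agent.N310
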